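import Mathlib

/-! P050 units U2, U3: Chebyshev's inequality for many monotone functions; power mean. -/

namespace P050

open Finset

/-- U2. Chebyshev for a family of nonnegative monotone functions on a finite linear order.
Induction on `s` (`Finset.induction_on`); step: `MonovaryOn.sum_mul_sum_le_card_mul_sum`
(or `Monovary.sum_mul_sum_le_card_mul_sum`) for `f i` and `∏ j ∈ s, f j`
(a product of nonnegative monotone functions is monotone; `Monotone.monovary`). -/
theorem cheb_many {X ι : Type*} [Fintype X] [LinearOrder X] [DecidableEq ι]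
    (s : Finset ι) (f : ι → X → ℝ) (h0 : ∀ i x, 0 ≤ f i x) (hm : ∀ i, Monotone (f i)) :
    (Fintype.card X : ℝ) * ∏ i ∈ s, ∑ x, f i x
      ≤ (Fintype.card X : ℝ) ^ s.card * ∑ x, ∏ i ∈ s, f i x := by
  induction s using Finset.induction_on with
  | empty => simp
  | insert a s ha ih =>
    have hg : Monotone fun x => ∏ i ∈ s, f i x := fun x y hxy =>
      Finset.prod_le_prod (fun i _ => h0 i x) (fun i _ => hm i hxy)
    have hch : (∑ x, f a x) * ∑ x, ∏ i ∈ s, f i x
        ≤ (Fintype.card X : ℝ) * ∑ x, f a x * ∏ i ∈ s, f i x :=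
      ((hm a).monovary hg).sum_mul_sum_le_card_mul_sum
    have hA : 0 ≤ ∑ x, f a x := Finset.sum_nonneg (fun x _ => h0 a x)
    have hc : (0 : ℝ) ≤ (Fintype.card X : ℝ) ^ s.card := by positivity
    simp only [Finset.prod_insert ha, Finset.card_insert_of_notMem ha]
    calc (Fintype.card X : ℝ) * ((∑ x, f a x) * ∏ i ∈ s, ∑ x, f i x)
        = (∑ x, f a x) * ((Fintype.card X : ℝ) * ∏ i ∈ s, ∑ x, f i x) := by ring
      _ ≤ (∑ x, f a x) * ((Fintype.card X : ℝ) ^ s.card * ∑ x, ∏ i ∈ s, f i x) :=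
          mul_le_mul_of_nonneg_left ih hA
      _ = (Fintype.card X : ℝ) ^ s.card * ((∑ x, f a x) * ∑ x, ∏ i ∈ s, f i x) := by ring
      _ ≤ (Fintype.card X : ℝ) ^ s.card
            * ((Fintype.card X : ℝ) * ∑ x, f a x * ∏ i ∈ s, f i x) :=
          mul_le_mul_of_nonneg_left hch hc
      _ = (Fintype.card X : ℝ) ^ (s.card + 1) * ∑ x, f a x * ∏ i ∈ s, f i x := by ring

/-- U3. Power mean. Cases `k = 0` (both sides `card Y`) and `k = n + 1`
(`pow_sum_div_card_le_sum_pow` or `inner_le_nnorm_mul_nnorm`, or `cheb`-type induction with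
`monovary_self`). -/
theorem power_mean {Y : Type*} [Fintype Y] (d : Y → ℝ) (h0 : ∀ y, 0 ≤ d y) (k : ℕ) :
    (Fintype.card Y : ℝ) * (∑ y, d y) ^ k ≤ (Fintype.card Y : ℝ) ^ k * ∑ y, d y ^ k := by
  rcases k with _ | n
  · simp
  · rcases Nat.eq_zero_or_pos (Fintype.card Y) with hY | hY
    · simp [hY]
    · have hY' : (0 : ℝ) < (Fintype.card Y : ℝ) := by exact_mod_cast hY
      have h := _root_.pow_sum_div_card_le_sum_pow (s := (Finset.univ : Finset Y)) (f := d)
        (fun a _ => h0 a) n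
      rw [Finset.card_univ, div_le_iff₀ (by positivity)] at h
      calc (Fintype.card Y : ℝ) * (∑ y, d y) ^ (n + 1)
          ≤ (Fintype.card Y : ℝ) * ((∑ y, d y ^ (n + 1)) * (Fintype.card Y : ℝ) ^ n) :=
            mul_le_mul_of_nonneg_left h hY'.le
        _ = (Fintype.card Y : ℝ) ^ (n + 1) * ∑ y, d y ^ (n + 1) := by ring

end P050
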