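import Mathlib

/-! P050 unit U1: factorisation of a sum over all maps of a product over edges. -/

namespace P050

open Finset

/-- U1. `∑_{φ : A → X} ∏_{e ∈ E} g (φ (p e)) e = ∏_a ∑_x ∏_{e ∈ E, p e = a} g x e`. -/
theorem sum_prod_fact {A X ι : Type*} [Fintype A] [DecidableEq A] [Fintype X] [DecidableEq X]
    (E : Finset ι) (p : ι → A) (g : X → ι → ℝ) :
    ∑ φ : A → X, ∏ e ∈ E, g (φ (p e)) e
      = ∏ a : A, ∑ x : X, ∏ e ∈ E.filter (fun e => p e = a), g x e := by
  rw [Finset.prod_univ_sum, Fintype.piFinset_univ]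
  apply Finset.sum_congr rfl
  intro φ _
  rw [← Finset.prod_fiberwise E p (fun e => g (φ (p e)) e)]
  apply Finset.prod_congr rfl
  intro a _
  apply Finset.prod_congr rfl
  intro e he
  rw [(Finset.mem_filter.1 he).2]

end P050
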