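import Vale.Agent.Lib.P050.GMain

/-! P050: the same theorems for hosts whose left part is a finite distributive lattice
(Fortuin-Kasteleyn-Ginibre instead of Chebyshev). -/

namespace P050

open Finset

/-- Harris / FKG for a family of nonnegative monotone functions on a finite distributive lattice
with the uniform measure. -/
theorem fkg_many {X ι : Type*} [Fintype X] [DistribLattice X] [DecidableEq ι]
    (s : Finset ι) (f : ι → X → ℝ) (h0 : ∀ i x, 0 ≤ f i x) (hm : ∀ i, Monotone (f i)) :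
    (Fintype.card X : ℝ) * ∏ i ∈ s, ∑ x, f i x
      ≤ (Fintype.card X : ℝ) ^ s.card * ∑ x, ∏ i ∈ s, f i x := by
  classical
  induction s using Finset.induction_on with
  | empty => simp
  | insert i s hi ih =>
    have hN0 : (0 : ℝ) ≤ (Fintype.card X : ℝ) := Nat.cast_nonneg _
    have hmono : Monotone (fun x => ∏ j ∈ s, f j x) := by
      intro x x' hxx
      exact Finset.prod_le_prod (fun j _ => h0 j x) (fun j _ => hm j hxx)
    have hk := fkg (μ := fun _ : X => (1 : ℝ)) (f := f i) (g := fun x => ∏ j ∈ s, f j x)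
      (fun _ => zero_le_one) (fun x => h0 i x) (fun x => Finset.prod_nonneg (fun j _ => h0 j x))
      (hm i) hmono (fun _ _ => le_refl _)
    simp only [one_mul, Finset.sum_const, Finset.card_univ, nsmul_eq_mul, mul_one] at hk
    rw [Finset.prod_insert hi, Finset.card_insert_of_notMem hi]
    simp only [Finset.prod_insert hi]
    have hsum0 : 0 ≤ ∑ x, f i x := Finset.sum_nonneg (fun x _ => h0 i x)
    calc (Fintype.card X : ℝ) * ((∑ x, f i x) * ∏ j ∈ s, ∑ x, f j x)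
        = (∑ x, f i x) * ((Fintype.card X : ℝ) * ∏ j ∈ s, ∑ x, f j x) := by ring
      _ ≤ (∑ x, f i x) * ((Fintype.card X : ℝ) ^ s.card * ∑ x, ∏ j ∈ s, f j x) :=
          mul_le_mul_of_nonneg_left ih hsum0
      _ = (Fintype.card X : ℝ) ^ s.card * ((∑ x, f i x) * ∑ x, ∏ j ∈ s, f j x) := by ring
      _ ≤ (Fintype.card X : ℝ) ^ s.card
            * ((Fintype.card X : ℝ) * ∑ x, f i x * ∏ j ∈ s, f j x) :=
          mul_le_mul_of_nonneg_left hk (pow_nonneg hN0 _)
      _ = (Fintype.card X : ℝ) ^ (s.card + 1) * ∑ x, f i x * ∏ j ∈ s, f j x := by ring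

section

variable {A B X Y : Type*} [Fintype A] [DecidableEq A] [Fintype B] [DecidableEq B]
  [Fintype X] [DistribLattice X] [Fintype Y] [DecidableEq Y]

theorem mainF (E : Finset (A × B)) (W : X → Y → ℝ) (h0 : ∀ x y, 0 ≤ W x y)
    (hm : ∀ y, Monotone (fun x => W x y)) :
    (Fintype.card X : ℝ) ^ Fintype.card A * (Fintype.card Y : ℝ) ^ Fintype.card B
        * (∑ x, ∑ y, W x y) ^ E.card
      ≤ ((Fintype.card X : ℝ) * (Fintype.card Y : ℝ)) ^ E.card
        * ∑ φ : A → X, ∑ ψ : B → Y, ∏ e ∈ E, W (φ e.1) (ψ e.2) := by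
  classical
  set N : ℝ := (Fintype.card X : ℝ) with hN
  set M : ℝ := (Fintype.card Y : ℝ) with hM
  have hN0 : 0 ≤ N := Nat.cast_nonneg _
  have hM0 : 0 ≤ M := Nat.cast_nonneg _
  let d : Y → ℝ := fun y => ∑ x, W x y
  have hd0 : ∀ y, 0 ≤ d y := fun y => Finset.sum_nonneg (fun x _ => h0 x y)
  -- step A: for each ψ
  have hA : ∀ ψ : B → Y, N ^ Fintype.card A * ∏ e ∈ E, d (ψ e.2)
      ≤ N ^ E.card * ∑ φ : A → X, ∏ e ∈ E, W (φ e.1) (ψ e.2) := by
    intro ψ
    rw [sum_prod_fact E Prod.fst (fun x e => W x (ψ e.2))]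
    apply prod_fibre_le E Prod.fst N hN0 (fun e => d (ψ e.2)) (fun e => hd0 _)
    intro a
    exact fkg_many (E.filter (fun e => e.1 = a)) (fun e x => W x (ψ e.2))
      (fun e x => h0 _ _) (fun e => hm _)
  -- step B
  have hB : M ^ Fintype.card B * (∑ y, d y) ^ E.card
      ≤ M ^ E.card * ∑ ψ : B → Y, ∏ e ∈ E, d (ψ e.2) := by
    rw [sum_prod_fact E Prod.snd (fun y _ => d y)]
    have := prod_fibre_le E Prod.snd M hM0 (fun _ => ∑ y, d y)
      (fun _ => Finset.sum_nonneg (fun y _ => hd0 y))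
      (fun b => ∑ y, ∏ e ∈ E.filter (fun e => e.2 = b), d y) (by
        intro b
        simp only [Finset.prod_const]
        exact power_mean d hd0 _)
    simpa [Finset.prod_const] using this
  have hsum : ∑ x, ∑ y, W x y = ∑ y, d y := Finset.sum_comm
  have hcomm : ∑ φ : A → X, ∑ ψ : B → Y, ∏ e ∈ E, W (φ e.1) (ψ e.2)
      = ∑ ψ : B → Y, ∑ φ : A → X, ∏ e ∈ E, W (φ e.1) (ψ e.2) := Finset.sum_comm
  rw [hsum, hcomm]
  have hA' : N ^ Fintype.card A * ∑ ψ : B → Y, ∏ e ∈ E, d (ψ e.2)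
      ≤ N ^ E.card * ∑ ψ : B → Y, ∑ φ : A → X, ∏ e ∈ E, W (φ e.1) (ψ e.2) := by
    rw [Finset.mul_sum, Finset.mul_sum]
    exact Finset.sum_le_sum (fun ψ _ => hA ψ)
  calc N ^ Fintype.card A * M ^ Fintype.card B * (∑ y, d y) ^ E.card
      = N ^ Fintype.card A * (M ^ Fintype.card B * (∑ y, d y) ^ E.card) := by ring
    _ ≤ N ^ Fintype.card A * (M ^ E.card * ∑ ψ : B → Y, ∏ e ∈ E, d (ψ e.2)) :=
        mul_le_mul_of_nonneg_left hB (pow_nonneg hN0 _)
    _ = M ^ E.card * (N ^ Fintype.card A * ∑ ψ : B → Y, ∏ e ∈ E, d (ψ e.2)) := by ring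
    _ ≤ M ^ E.card * (N ^ E.card * ∑ ψ : B → Y, ∑ φ : A → X, ∏ e ∈ E, W (φ e.1) (ψ e.2)) :=
        mul_le_mul_of_nonneg_left hA' (pow_nonneg hM0 _)
    _ = (N * M) ^ E.card * ∑ ψ : B → Y, ∑ φ : A → X, ∏ e ∈ E, W (φ e.1) (ψ e.2) := by
        rw [mul_pow]; ring


end

theorem gmainF {A B X Y : Type*} [Fintype A] [Fintype B] [Fintype X] [DistribLattice X] [Nonempty X]
    [Fintype Y] [Nonempty Y]
    (RH : A → B → Prop) (R : X → Y → Prop) (hmono : ∀ y x x', x ≤ x' → R x y → R x' y)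
    (he : 1 ≤ (bip RH).edgeSet.ncard)
    (hab : Fintype.card A + Fintype.card B ≤ (bip RH).edgeSet.ncard + 1) :
    (2 * ((bip R).edgeSet.ncard : ℝ) / (Fintype.card (X ⊕ Y) : ℝ) ^ 2) ^ (bip RH).edgeSet.ncard
      ≤ (Nat.card (bip RH →g bip R) : ℝ)
          / (Fintype.card (X ⊕ Y) : ℝ) ^ Fintype.card (A ⊕ B) := by
  classical
  rw [ncard_edgeSet_bip] at he hab ⊢
  rw [ncard_edgeSet_bip]
  set e := (edgesOf RH).card with hedef
  set S : ℝ := ((edgesOf R).card : ℝ) with hS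
  set N : ℝ := (Fintype.card X : ℝ) with hNdef
  set M : ℝ := (Fintype.card Y : ℝ) with hMdef
  set a := Fintype.card A with hadef
  set b := Fintype.card B with hbdef
  have hN : 0 < N := by rw [hNdef]; exact_mod_cast Fintype.card_pos
  have hM : 0 < M := by rw [hMdef]; exact_mod_cast Fintype.card_pos
  have hS0 : 0 ≤ S := Nat.cast_nonneg _
  have hAne : Nonempty A := by
    have : 0 < (edgesOf RH).card := he
    obtain ⟨p, _⟩ := Finset.card_pos.1 this
    exact ⟨p.1⟩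
  have m1 := mainF (edgesOf RH) (ind R) (ind_nonneg R) (ind_mono R hmono)
  have m2 := mainF (edgesOf (fun b a => RH a b)) (ind R) (ind_nonneg R) (ind_mono R hmono)
  rw [sum_ind_eq, sum_ind_card] at m1 m2
  rw [card_edgesOf_flip RH] at m2
  have hg := hom_ge RH R
  set h1 := Nat.card {p : (A → X) × (B → Y) // ∀ a b, RH a b → R (p.1 a) (p.2 b)} with hh1
  set h2 := Nat.card {p : (B → X) × (A → Y) // ∀ b a, RH a b → R (p.1 b) (p.2 a)} with hh2
  set hom := Nat.card (bip RH →g bip R) with hhom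
  have hg' : (h1 : ℝ) + (h2 : ℝ) ≤ (hom : ℝ) := by exact_mod_cast hg
  have hnum := num_ineq N M hN hM a b e he hab
  have hcardV : (Fintype.card (X ⊕ Y) : ℝ) = N + M := by
    rw [Fintype.card_sum]; push_cast; rfl
  have hcardH : Fintype.card (A ⊕ B) = a + b := Fintype.card_sum
  rw [hcardV, hcardH]
  have hNM : 0 < N + M := by positivity
  rw [div_pow, div_le_div_iff₀ (by positivity) (by positivity)]
  -- goal: (2 S)^e (N+M)^(a+b) ≤ hom * ((N+M)^2)^e
  have hkey : (N * M) ^ e * ((2 * S) ^ e * (N + M) ^ (a + b))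
      ≤ (N * M) ^ e * ((hom : ℝ) * ((N + M) ^ 2) ^ e) := by
    have e1 : (N * M) ^ e * ((2 * S) ^ e * (N + M) ^ (a + b))
        = ((2 * N * M) ^ e * (N + M) ^ (a + b)) * S ^ e := by
      rw [mul_pow, mul_pow, mul_pow, mul_pow]; ring
    have e2 : ((2 * N * M) ^ e * (N + M) ^ (a + b)) * S ^ e
        ≤ ((N ^ a * M ^ b + N ^ b * M ^ a) * (N + M) ^ (2 * e)) * S ^ e :=
      mul_le_mul_of_nonneg_right hnum (pow_nonneg hS0 _)
    have e3 : ((N ^ a * M ^ b + N ^ b * M ^ a) * (N + M) ^ (2 * e)) * S ^ e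
        = (N ^ a * M ^ b * S ^ e + N ^ b * M ^ a * S ^ e) * (N + M) ^ (2 * e) := by ring
    have e4 : (N ^ a * M ^ b * S ^ e + N ^ b * M ^ a * S ^ e) * (N + M) ^ (2 * e)
        ≤ ((N * M) ^ e * (h1 : ℝ) + (N * M) ^ e * (h2 : ℝ)) * (N + M) ^ (2 * e) :=
      mul_le_mul_of_nonneg_right (add_le_add m1 m2) (by positivity)
    have e5 : ((N * M) ^ e * (h1 : ℝ) + (N * M) ^ e * (h2 : ℝ)) * (N + M) ^ (2 * e)
        ≤ ((N * M) ^ e * (hom : ℝ)) * (N + M) ^ (2 * e) := by
      apply mul_le_mul_of_nonneg_right _ (by positivity)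
      rw [← mul_add]
      exact mul_le_mul_of_nonneg_left hg' (by positivity)
    have e6 : ((N * M) ^ e * (hom : ℝ)) * (N + M) ^ (2 * e)
        = (N * M) ^ e * ((hom : ℝ) * ((N + M) ^ 2) ^ e) := by
      rw [← pow_mul]; ring
    linarith
  exact le_of_mul_le_mul_left hkey (by positivity)

end P050
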