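import Mathlib

/-! P050 graph level: definitions. -/

namespace P050

/-- the bipartite graph on `X ⊕ Y` in which `inl x` and `inr y` are adjacent iff `R x y`
(no other adjacencies). -/
def bip {X Y : Type*} (R : X → Y → Prop) : SimpleGraph (X ⊕ Y) :=
  SimpleGraph.fromRel (fun u v => ∃ x y, u = Sum.inl x ∧ v = Sum.inr y ∧ R x y)

open Classical in
/-- 0/1 weight of a relation. -/
noncomputable def ind {X Y : Type*} (R : X → Y → Prop) : X → Y → ℝ :=
  fun x y => if R x y then 1 else 0

open Classical in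
/-- the finite set of related pairs. -/
noncomputable def edgesOf {X Y : Type*} [Fintype X] [Fintype Y] (R : X → Y → Prop) :
    Finset (X × Y) :=
  Finset.univ.filter (fun e => R e.1 e.2)

theorem bip_adj_lr {X Y : Type*} (R : X → Y → Prop) (x : X) (y : Y) :
    (bip R).Adj (Sum.inl x) (Sum.inr y) ↔ R x y := by
  simp [bip, SimpleGraph.fromRel_adj]

theorem bip_adj_rl {X Y : Type*} (R : X → Y → Prop) (x : X) (y : Y) :
    (bip R).Adj (Sum.inr y) (Sum.inl x) ↔ R x y := by
  simp [bip, SimpleGraph.fromRel_adj]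

theorem bip_adj_ll {X Y : Type*} (R : X → Y → Prop) (x x' : X) :
    ¬ (bip R).Adj (Sum.inl x) (Sum.inl x' : X ⊕ Y) := by
  simp [bip, SimpleGraph.fromRel_adj]

theorem bip_adj_rr {X Y : Type*} (R : X → Y → Prop) (y y' : Y) :
    ¬ (bip R).Adj (Sum.inr y : X ⊕ Y) (Sum.inr y') := by
  simp [bip, SimpleGraph.fromRel_adj]

end P050
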