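import Vale.Agent.Lib.P050.GDefs

/-! P050 unit G3: the number of edges of `bip R`. -/

namespace P050

/-- G3. The map `(x, y) ↦ s(inl x, inr y)` is a bijection from the related pairs onto the edge set.
Hint: `Set.ncard_eq_of_bijective` / `Set.ncard_image_of_injOn` with
`(bip R).edgeSet = (fun e => s(Sum.inl e.1, Sum.inr e.2)) '' (edgesOf R)`, `Set.ncard_coe_finset`;
use `Sym2.ind`, `SimpleGraph.mem_edgeSet`, `bip_adj_lr` etc. -/
theorem ncard_edgeSet_bip {X Y : Type*} [Fintype X] [Fintype Y] (R : X → Y → Prop) :
    (bip R).edgeSet.ncard = (edgesOf R).card := by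
  classical
  have h : (bip R).edgeSet
      = (fun e : X × Y => s(Sum.inl e.1, Sum.inr e.2)) '' (edgesOf R : Set (X × Y)) := by
    ext e
    induction e using Sym2.ind with
    | _ u v =>
      rw [SimpleGraph.mem_edgeSet]
      constructor
      · intro huv
        rcases u with x | y <;> rcases v with x' | y'
        · exact absurd huv (bip_adj_ll R x x')
        · exact ⟨(x, y'), by simpa [edgesOf] using (bip_adj_lr R _ _).mp huv, rfl⟩
        · exact ⟨(x', y), by simpa [edgesOf] using (bip_adj_rl R _ _).mp huv, Sym2.eq_swap⟩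
        · exact absurd huv (bip_adj_rr R y y')
      · rintro ⟨⟨x, y⟩, hxy, he⟩
        have hR : R x y := by simpa [edgesOf] using hxy
        have hadj : (bip R).Adj (Sum.inl x) (Sum.inr y) := (bip_adj_lr R x y).mpr hR
        rw [← SimpleGraph.mem_edgeSet, ← he]
        exact hadj
  rw [h, Set.ncard_image_of_injOn, Set.ncard_coe_finset]
  intro e _ e' _ hee
  simp only [Sym2.eq_iff] at hee
  rcases hee with ⟨h1, h2⟩ | ⟨h1, h2⟩
  · exact Prod.ext (Sum.inl_injective h1) (Sum.inr_injective h2)
  · exact absurd h1 (by simp)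

end P050
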