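import Vale.Agent.Lib.P050.GDefs

/-! P050 unit G1: two disjoint families of homomorphisms. -/

namespace P050

/-- G1. The maps `Sum.elim (inl ∘ φ) (inr ∘ ψ)` and `Sum.elim (inr ∘ ψ) (inl ∘ φ)` are
homomorphisms `bip RH →g bip R`; the two families are injective and disjoint (look at the image
of a vertex `inl a`).  Suggested: build an injective map from the sum type of the two subtypes
into the hom type, `Nat.card_le_card_of_injective` + `Nat.card_sum` (all types are finite;
`RelHom` injects into functions via `DFunLike.coe_injective`, so it is `Finite`). -/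
theorem hom_ge {A B X Y : Type*} [Finite A] [Finite B] [Finite X] [Finite Y] [Nonempty A]
    (RH : A → B → Prop) (R : X → Y → Prop) :
    Nat.card {p : (A → X) × (B → Y) // ∀ a b, RH a b → R (p.1 a) (p.2 b)}
      + Nat.card {p : (B → X) × (A → Y) // ∀ b a, RH a b → R (p.1 b) (p.2 a)}
      ≤ Nat.card (bip RH →g bip R) := by
  classical
  haveI : Finite (bip RH →g bip R) :=
    Finite.of_injective (fun f => (f : A ⊕ B → X ⊕ Y)) DFunLike.coe_injective
  rw [← Nat.card_sum]
  let F1 : {p : (A → X) × (B → Y) // ∀ a b, RH a b → R (p.1 a) (p.2 b)} → (bip RH →g bip R) :=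
    fun p => ⟨Sum.elim (fun a => Sum.inl (p.1.1 a)) (fun b => Sum.inr (p.1.2 b)), by
      intro u v huv
      rcases u with a | b <;> rcases v with a' | b'
      · exact absurd huv (bip_adj_ll RH a a')
      · exact (bip_adj_lr R _ _).mpr (p.2 a b' ((bip_adj_lr RH _ _).mp huv))
      · exact (bip_adj_rl R _ _).mpr (p.2 a' b ((bip_adj_rl RH _ _).mp huv))
      · exact absurd huv (bip_adj_rr RH b b')⟩
  let F2 : {p : (B → X) × (A → Y) // ∀ b a, RH a b → R (p.1 b) (p.2 a)} → (bip RH →g bip R) :=
    fun p => ⟨Sum.elim (fun a => Sum.inr (p.1.2 a)) (fun b => Sum.inl (p.1.1 b)), by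
      intro u v huv
      rcases u with a | b <;> rcases v with a' | b'
      · exact absurd huv (bip_adj_ll RH a a')
      · exact (bip_adj_rl R _ _).mpr (p.2 b' a ((bip_adj_lr RH _ _).mp huv))
      · exact (bip_adj_lr R _ _).mpr (p.2 b a' ((bip_adj_rl RH _ _).mp huv))
      · exact absurd huv (bip_adj_rr RH b b')⟩
  have hF1l : ∀ p a, F1 p (Sum.inl a) = Sum.inl (p.1.1 a) := fun p a => rfl
  have hF1r : ∀ p b, F1 p (Sum.inr b) = Sum.inr (p.1.2 b) := fun p b => rfl
  have hF2l : ∀ p a, F2 p (Sum.inl a) = Sum.inr (p.1.2 a) := fun p a => rfl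
  have hF2r : ∀ p b, F2 p (Sum.inr b) = Sum.inl (p.1.1 b) := fun p b => rfl
  obtain ⟨a0⟩ := ‹Nonempty A›
  refine Nat.card_le_card_of_injective (Sum.elim F1 F2) ?_
  intro s t hst
  rcases s with p | p <;> rcases t with q | q
  · simp only [Sum.elim_inl] at hst
    have h : ∀ u, F1 p u = F1 q u := fun u => by rw [hst]
    congr 1
    apply Subtype.ext
    apply Prod.ext
    · funext a
      have := h (Sum.inl a)
      rw [hF1l, hF1l] at this
      exact Sum.inl_injective this
    · funext b
      have := h (Sum.inr b)
      rw [hF1r, hF1r] at this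
      exact Sum.inr_injective this
  · simp only [Sum.elim_inl, Sum.elim_inr] at hst
    have := congrArg (fun f => f (Sum.inl a0)) hst
    simp only [hF1l, hF2l] at this
    exact absurd this (by simp)
  · simp only [Sum.elim_inl, Sum.elim_inr] at hst
    have := congrArg (fun f => f (Sum.inl a0)) hst
    simp only [hF1l, hF2l] at this
    exact absurd this (by simp)
  · simp only [Sum.elim_inr] at hst
    have h : ∀ u, F2 p u = F2 q u := fun u => by rw [hst]
    congr 1
    apply Subtype.ext
    apply Prod.ext
    · funext b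
      have := h (Sum.inr b)
      rw [hF2r, hF2r] at this
      exact Sum.inl_injective this
    · funext a
      have := h (Sum.inl a)
      rw [hF2l, hF2l] at this
      exact Sum.inr_injective this

end P050
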