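import Vale.Agent.Lib.P050.GDefs

/-! P050 units G2, G3b: 0/1 weights count. -/

namespace P050

open Finset

/-- G2. The weighted count with 0/1 weights is the number of valid pairs of maps.
Hint: `Finset.prod_boole`-like (`∏ e ∈ s, if p e then 1 else 0 = if ∀ e ∈ s, p e then 1 else 0`),
`Finset.sum_product'`, `Finset.sum_boole`, `Nat.card_eq_fintype_card`, `Fintype.card_subtype`. -/
theorem sum_ind_eq {A B X Y : Type*} [Fintype A] [DecidableEq A] [Fintype B] [DecidableEq B]
    [Fintype X] [Fintype Y] (RH : A → B → Prop) (R : X → Y → Prop) :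
    ∑ φ : A → X, ∑ ψ : B → Y, ∏ e ∈ edgesOf RH, ind R (φ e.1) (ψ e.2)
      = (Nat.card {p : (A → X) × (B → Y) // ∀ a b, RH a b → R (p.1 a) (p.2 b)} : ℝ) := by
  classical
  have hprod : ∀ (φ : A → X) (ψ : B → Y), ∏ e ∈ edgesOf RH, ind R (φ e.1) (ψ e.2)
      = if (∀ a b, RH a b → R (φ a) (ψ b)) then (1 : ℝ) else 0 := by
    intro φ ψ
    by_cases h : ∀ a b, RH a b → R (φ a) (ψ b)
    · rw [if_pos h]
      refine Finset.prod_eq_one (fun e he => ?_)
      have he' : RH e.1 e.2 := by simpa [edgesOf] using he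
      simp [ind, h _ _ he']
    · rw [if_neg h]
      push Not at h
      obtain ⟨a, b, hab, hR⟩ := h
      refine Finset.prod_eq_zero (i := (a, b)) (by simp [edgesOf, hab]) ?_
      simp [ind, hR]
  simp only [hprod]
  rw [← Fintype.sum_prod_type' (f := fun (φ : A → X) (ψ : B → Y) =>
    if (∀ a b, RH a b → R (φ a) (ψ b)) then (1 : ℝ) else 0), Finset.sum_boole,
    Nat.card_eq_fintype_card, Fintype.card_subtype]

/-- G3b. -/
theorem sum_ind_card {X Y : Type*} [Fintype X] [Fintype Y] (R : X → Y → Prop) :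
    ∑ x, ∑ y, ind R x y = ((edgesOf R).card : ℝ) := by
  classical
  rw [← Fintype.sum_prod_type' (f := fun x y => ind R x y)]
  simp only [ind]
  rw [Finset.sum_boole]
  simp only [edgesOf]

/-- G5. -/
theorem card_edgesOf_flip {A B : Type*} [Fintype A] [Fintype B] (RH : A → B → Prop) :
    (edgesOf (fun b a => RH a b)).card = (edgesOf RH).card := by
  classical
  refine Finset.card_equiv (Equiv.prodComm B A) (fun e => ?_)
  simp [edgesOf]

end P050
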