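import Mathlib

/-! P050 unit G4: the numeric inequality. -/

namespace P050

theorem num_ineq (N M : ℝ) (hN : 0 < N) (hM : 0 < M) (a b e : ℕ) (he : 1 ≤ e)
    (hab : a + b ≤ e + 1) :
    (2 * N * M) ^ e * (N + M) ^ (a + b)
      ≤ (N ^ a * M ^ b + N ^ b * M ^ a) * (N + M) ^ (2 * e) := by
  obtain ⟨k, hk⟩ : ∃ k, 2 * e = a + b + k := ⟨2 * e - (a + b), by omega⟩
  have key : (2 * N * M) ^ e ≤ (N ^ a * M ^ b + N ^ b * M ^ a) * (N + M) ^ k := by
    apply (pow_le_pow_iff_left₀ (by positivity) (by positivity) two_ne_zero).1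
    have h1 : 4 * (N * M) ^ (a + b) ≤ (N ^ a * M ^ b + N ^ b * M ^ a) ^ 2 := by
      have e1 : (N * M) ^ (a + b) = (N ^ a * M ^ b) * (N ^ b * M ^ a) := by
        rw [mul_pow, pow_add, pow_add]
        ring
      rw [e1]
      nlinarith [sq_nonneg (N ^ a * M ^ b - N ^ b * M ^ a)]
    have h2 : (4 * (N * M)) ^ k ≤ ((N + M) ^ 2) ^ k :=
      pow_le_pow_left₀ (by positivity) (by nlinarith [sq_nonneg (N - M)]) k
    have h3 : (4 : ℝ) ^ e ≤ 4 ^ (k + 1) := pow_le_pow_right₀ (by norm_num) (by omega)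
    have e2 : ((2 * N * M) ^ e) ^ 2 = 4 ^ e * (N * M) ^ (a + b + k) := by
      rw [← hk, ← pow_mul, mul_comm e 2, pow_mul, pow_mul, ← mul_pow]
      congr 1
      ring
    have e3 : ((N ^ a * M ^ b + N ^ b * M ^ a) * (N + M) ^ k) ^ 2
        = (N ^ a * M ^ b + N ^ b * M ^ a) ^ 2 * ((N + M) ^ 2) ^ k := by
      rw [mul_pow, ← pow_mul, ← pow_mul, mul_comm k 2]
    rw [e2, e3]
    calc (4 : ℝ) ^ e * (N * M) ^ (a + b + k) ≤ 4 ^ (k + 1) * (N * M) ^ (a + b + k) :=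
          mul_le_mul_of_nonneg_right h3 (by positivity)
      _ = (4 * (N * M) ^ (a + b)) * (4 * (N * M)) ^ k := by
          rw [pow_succ, pow_add, mul_pow]
          ring
      _ ≤ (N ^ a * M ^ b + N ^ b * M ^ a) ^ 2 * ((N + M) ^ 2) ^ k :=
          mul_le_mul h1 h2 (by positivity) (by positivity)
  rw [hk, pow_add (N + M) (a + b) k]
  calc (2 * N * M) ^ e * (N + M) ^ (a + b)
      ≤ ((N ^ a * M ^ b + N ^ b * M ^ a) * (N + M) ^ k) * (N + M) ^ (a + b) :=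
        mul_le_mul_of_nonneg_right key (by positivity)
    _ = _ := by ring

end P050
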