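import Vale.Agent.Lib.P050.Main
import Vale.Agent.Lib.P050.GHom
import Vale.Agent.Lib.P050.GInd
import Vale.Agent.Lib.P050.GEdge
import Vale.Agent.Lib.P050.GNum

/-! P050 graph level assembly. -/

namespace P050

open Finset

theorem ind_nonneg {X Y : Type*} (R : X → Y → Prop) (x : X) (y : Y) : 0 ≤ ind R x y := by
  unfold ind
  split_ifs <;> norm_num

theorem ind_mono {X Y : Type*} [Preorder X] (R : X → Y → Prop)
    (hmono : ∀ y x x', x ≤ x' → R x y → R x' y) (y : Y) : Monotone (fun x => ind R x y) := by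
  intro x x' hxx
  simp only [ind]
  by_cases h : R x y
  · rw [if_pos h, if_pos (hmono y x x' hxx h)]
  · rw [if_neg h]
    split_ifs <;> norm_num

theorem gmain {A B X Y : Type*} [Fintype A] [Fintype B] [Fintype X] [LinearOrder X] [Nonempty X]
    [Fintype Y] [Nonempty Y]
    (RH : A → B → Prop) (R : X → Y → Prop) (hmono : ∀ y x x', x ≤ x' → R x y → R x' y)
    (he : 1 ≤ (bip RH).edgeSet.ncard)
    (hab : Fintype.card A + Fintype.card B ≤ (bip RH).edgeSet.ncard + 1) :
    (2 * ((bip R).edgeSet.ncard : ℝ) / (Fintype.card (X ⊕ Y) : ℝ) ^ 2) ^ (bip RH).edgeSet.ncard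
      ≤ (Nat.card (bip RH →g bip R) : ℝ)
          / (Fintype.card (X ⊕ Y) : ℝ) ^ Fintype.card (A ⊕ B) := by
  classical
  rw [ncard_edgeSet_bip] at he hab ⊢
  rw [ncard_edgeSet_bip]
  set e := (edgesOf RH).card with hedef
  set S : ℝ := ((edgesOf R).card : ℝ) with hS
  set N : ℝ := (Fintype.card X : ℝ) with hNdef
  set M : ℝ := (Fintype.card Y : ℝ) with hMdef
  set a := Fintype.card A with hadef
  set b := Fintype.card B with hbdef
  have hN : 0 < N := by rw [hNdef]; exact_mod_cast Fintype.card_pos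
  have hM : 0 < M := by rw [hMdef]; exact_mod_cast Fintype.card_pos
  have hS0 : 0 ≤ S := Nat.cast_nonneg _
  have hAne : Nonempty A := by
    have : 0 < (edgesOf RH).card := he
    obtain ⟨p, _⟩ := Finset.card_pos.1 this
    exact ⟨p.1⟩
  have m1 := main (edgesOf RH) (ind R) (ind_nonneg R) (ind_mono R hmono)
  have m2 := main (edgesOf (fun b a => RH a b)) (ind R) (ind_nonneg R) (ind_mono R hmono)
  rw [sum_ind_eq, sum_ind_card] at m1 m2
  rw [card_edgesOf_flip RH] at m2
  have hg := hom_ge RH R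
  set h1 := Nat.card {p : (A → X) × (B → Y) // ∀ a b, RH a b → R (p.1 a) (p.2 b)} with hh1
  set h2 := Nat.card {p : (B → X) × (A → Y) // ∀ b a, RH a b → R (p.1 b) (p.2 a)} with hh2
  set hom := Nat.card (bip RH →g bip R) with hhom
  have hg' : (h1 : ℝ) + (h2 : ℝ) ≤ (hom : ℝ) := by exact_mod_cast hg
  have hnum := num_ineq N M hN hM a b e he hab
  have hcardV : (Fintype.card (X ⊕ Y) : ℝ) = N + M := by
    rw [Fintype.card_sum]; push_cast; rfl
  have hcardH : Fintype.card (A ⊕ B) = a + b := Fintype.card_sum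
  rw [hcardV, hcardH]
  have hNM : 0 < N + M := by positivity
  rw [div_pow, div_le_div_iff₀ (by positivity) (by positivity)]
  -- goal: (2 S)^e (N+M)^(a+b) ≤ hom * ((N+M)^2)^e
  have hkey : (N * M) ^ e * ((2 * S) ^ e * (N + M) ^ (a + b))
      ≤ (N * M) ^ e * ((hom : ℝ) * ((N + M) ^ 2) ^ e) := by
    have e1 : (N * M) ^ e * ((2 * S) ^ e * (N + M) ^ (a + b))
        = ((2 * N * M) ^ e * (N + M) ^ (a + b)) * S ^ e := by
      rw [mul_pow, mul_pow, mul_pow, mul_pow]; ring
    have e2 : ((2 * N * M) ^ e * (N + M) ^ (a + b)) * S ^ e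
        ≤ ((N ^ a * M ^ b + N ^ b * M ^ a) * (N + M) ^ (2 * e)) * S ^ e :=
      mul_le_mul_of_nonneg_right hnum (pow_nonneg hS0 _)
    have e3 : ((N ^ a * M ^ b + N ^ b * M ^ a) * (N + M) ^ (2 * e)) * S ^ e
        = (N ^ a * M ^ b * S ^ e + N ^ b * M ^ a * S ^ e) * (N + M) ^ (2 * e) := by ring
    have e4 : (N ^ a * M ^ b * S ^ e + N ^ b * M ^ a * S ^ e) * (N + M) ^ (2 * e)
        ≤ ((N * M) ^ e * (h1 : ℝ) + (N * M) ^ e * (h2 : ℝ)) * (N + M) ^ (2 * e) :=
      mul_le_mul_of_nonneg_right (add_le_add m1 m2) (by positivity)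
    have e5 : ((N * M) ^ e * (h1 : ℝ) + (N * M) ^ e * (h2 : ℝ)) * (N + M) ^ (2 * e)
        ≤ ((N * M) ^ e * (hom : ℝ)) * (N + M) ^ (2 * e) := by
      apply mul_le_mul_of_nonneg_right _ (by positivity)
      rw [← mul_add]
      exact mul_le_mul_of_nonneg_left hg' (by positivity)
    have e6 : ((N * M) ^ e * (hom : ℝ)) * (N + M) ^ (2 * e)
        = (N * M) ^ e * ((hom : ℝ) * ((N + M) ^ 2) ^ e) := by
      rw [← pow_mul]; ring
    linarith
  exact le_of_mul_le_mul_left hkey (by positivity)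

end P050
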