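import Vale.Agent.Lib.P050.Fact
import Vale.Agent.Lib.P050.Cheb

/-! P050 assembly: Sidorenko's inequality for hosts that are monotone in one variable. -/

namespace P050

open Finset

theorem prod_fibre_le {A ι : Type*} [Fintype A] [DecidableEq A] (E : Finset ι) (p : ι → A)
    (c : ℝ) (hc : 0 ≤ c) (u : ι → ℝ) (hu : ∀ e, 0 ≤ u e) (S : A → ℝ)
    (h : ∀ a, c * ∏ e ∈ E.filter (fun e => p e = a), u e
      ≤ c ^ (E.filter (fun e => p e = a)).card * S a) :
    c ^ Fintype.card A * ∏ e ∈ E, u e ≤ c ^ E.card * ∏ a, S a := by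
  have h1 : c ^ Fintype.card A * ∏ e ∈ E, u e
      = ∏ a : A, (c * ∏ e ∈ E.filter (fun e => p e = a), u e) := by
    rw [Finset.prod_mul_distrib, Finset.prod_const, Finset.card_univ,
      Finset.prod_fiberwise]
  have h2 : c ^ E.card * ∏ a, S a
      = ∏ a : A, (c ^ (E.filter (fun e => p e = a)).card * S a) := by
    rw [Finset.prod_mul_distrib, Finset.prod_pow_eq_pow_sum]
    congr 2
    exact Finset.card_eq_sum_card_fiberwise (fun e _ => Finset.mem_coe.2 (Finset.mem_univ (p e)))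
  rw [h1, h2]
  apply Finset.prod_le_prod
  · intro a _
    exact mul_nonneg hc (Finset.prod_nonneg (fun e _ => hu e))
  · intro a _
    exact h a

variable {A B X Y : Type*} [Fintype A] [DecidableEq A] [Fintype B] [DecidableEq B]
  [Fintype X] [LinearOrder X] [Fintype Y] [DecidableEq Y]

theorem main (E : Finset (A × B)) (W : X → Y → ℝ) (h0 : ∀ x y, 0 ≤ W x y)
    (hm : ∀ y, Monotone (fun x => W x y)) :
    (Fintype.card X : ℝ) ^ Fintype.card A * (Fintype.card Y : ℝ) ^ Fintype.card B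
        * (∑ x, ∑ y, W x y) ^ E.card
      ≤ ((Fintype.card X : ℝ) * (Fintype.card Y : ℝ)) ^ E.card
        * ∑ φ : A → X, ∑ ψ : B → Y, ∏ e ∈ E, W (φ e.1) (ψ e.2) := by
  classical
  set N : ℝ := (Fintype.card X : ℝ) with hN
  set M : ℝ := (Fintype.card Y : ℝ) with hM
  have hN0 : 0 ≤ N := Nat.cast_nonneg _
  have hM0 : 0 ≤ M := Nat.cast_nonneg _
  let d : Y → ℝ := fun y => ∑ x, W x y
  have hd0 : ∀ y, 0 ≤ d y := fun y => Finset.sum_nonneg (fun x _ => h0 x y)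
  -- step A: for each ψ
  have hA : ∀ ψ : B → Y, N ^ Fintype.card A * ∏ e ∈ E, d (ψ e.2)
      ≤ N ^ E.card * ∑ φ : A → X, ∏ e ∈ E, W (φ e.1) (ψ e.2) := by
    intro ψ
    rw [sum_prod_fact E Prod.fst (fun x e => W x (ψ e.2))]
    apply prod_fibre_le E Prod.fst N hN0 (fun e => d (ψ e.2)) (fun e => hd0 _)
    intro a
    exact cheb_many (E.filter (fun e => e.1 = a)) (fun e x => W x (ψ e.2))
      (fun e x => h0 _ _) (fun e => hm _)
  -- step B
  have hB : M ^ Fintype.card B * (∑ y, d y) ^ E.card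
      ≤ M ^ E.card * ∑ ψ : B → Y, ∏ e ∈ E, d (ψ e.2) := by
    rw [sum_prod_fact E Prod.snd (fun y _ => d y)]
    have := prod_fibre_le E Prod.snd M hM0 (fun _ => ∑ y, d y)
      (fun _ => Finset.sum_nonneg (fun y _ => hd0 y))
      (fun b => ∑ y, ∏ e ∈ E.filter (fun e => e.2 = b), d y) (by
        intro b
        simp only [Finset.prod_const]
        exact power_mean d hd0 _)
    simpa [Finset.prod_const] using this
  have hsum : ∑ x, ∑ y, W x y = ∑ y, d y := Finset.sum_comm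
  have hcomm : ∑ φ : A → X, ∑ ψ : B → Y, ∏ e ∈ E, W (φ e.1) (ψ e.2)
      = ∑ ψ : B → Y, ∑ φ : A → X, ∏ e ∈ E, W (φ e.1) (ψ e.2) := Finset.sum_comm
  rw [hsum, hcomm]
  have hA' : N ^ Fintype.card A * ∑ ψ : B → Y, ∏ e ∈ E, d (ψ e.2)
      ≤ N ^ E.card * ∑ ψ : B → Y, ∑ φ : A → X, ∏ e ∈ E, W (φ e.1) (ψ e.2) := by
    rw [Finset.mul_sum, Finset.mul_sum]
    exact Finset.sum_le_sum (fun ψ _ => hA ψ)
  calc N ^ Fintype.card A * M ^ Fintype.card B * (∑ y, d y) ^ E.card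
      = N ^ Fintype.card A * (M ^ Fintype.card B * (∑ y, d y) ^ E.card) := by ring
    _ ≤ N ^ Fintype.card A * (M ^ E.card * ∑ ψ : B → Y, ∏ e ∈ E, d (ψ e.2)) :=
        mul_le_mul_of_nonneg_left hB (pow_nonneg hN0 _)
    _ = M ^ E.card * (N ^ Fintype.card A * ∑ ψ : B → Y, ∏ e ∈ E, d (ψ e.2)) := by ring
    _ ≤ M ^ E.card * (N ^ E.card * ∑ ψ : B → Y, ∑ φ : A → X, ∏ e ∈ E, W (φ e.1) (ψ e.2)) :=
        mul_le_mul_of_nonneg_left hA' (pow_nonneg hM0 _)
    _ = (N * M) ^ E.card * ∑ ψ : B → Y, ∑ φ : A → X, ∏ e ∈ E, W (φ e.1) (ψ e.2) := by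
        rw [mul_pow]; ring

end P050
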