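import Vale.Agent.Lib.P050.GDefs

/-! P050 unit S1: subgroups of a finite group are positively associated. -/

namespace P050

open Finset

/-- S1. For subgroups `U y` of a finite group `X` and every list `l` of indices:
`|X| * ∏_{y ∈ l} |U y| ≤ |X|^(length l) * |⋂_{y ∈ l} U y|`, written with 0/1 weights.
Proof: induction on `l`.  Let `V l` be the intersection subgroup (`⊤` for `[]`,
`U y ⊓ V l` for `y :: l`); pointwise `(l.map (fun y => ind R x y)).prod = if x ∈ V l then 1 else 0`,
so the sums are `Nat.card (U y)` and `Nat.card (V l)`; the step is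
`|U| * |V| ≤ |X| * |U ⊓ V|`, from `Subgroup.index_inf_le` and `Subgroup.card_mul_index`. -/
theorem subgroup_pos {X Y : Type*} [Group X] [Fintype X] (U : Y → Subgroup X) (l : List Y) :
    (Fintype.card X : ℝ) * (l.map (fun y => ∑ x, ind (fun x y => x ∈ U y) x y)).prod
      ≤ (Fintype.card X : ℝ) ^ l.length
        * ∑ x, (l.map (fun y => ind (fun x y => x ∈ U y) x y)).prod := by
  classical
  have hc : ∀ W : Subgroup X, ∑ x : X, (if x ∈ W then (1 : ℝ) else 0) = (Nat.card W : ℝ) := by
    intro W
    rw [Finset.sum_boole, Nat.card_eq_fintype_card, Fintype.card_subtype]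
  have hstep : ∀ A B : Subgroup X,
      (Nat.card A : ℝ) * (Nat.card B : ℝ) ≤ (Fintype.card X : ℝ) * (Nat.card (A ⊓ B : Subgroup X) : ℝ) := by
    intro A B
    have h1 := A.card_mul_index
    have h2 := B.card_mul_index
    have h3 := (A ⊓ B).card_mul_index
    have h4 := Subgroup.index_inf_le (H := A) (K := B)
    have hN : 0 < Nat.card X := Nat.card_pos
    have key : Nat.card A * Nat.card B ≤ Nat.card X * Nat.card (A ⊓ B : Subgroup X) := by
      apply Nat.le_of_mul_le_mul_left _ hN
      calc Nat.card X * (Nat.card A * Nat.card B)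
          = (Nat.card (A ⊓ B : Subgroup X) * (A ⊓ B).index) * (Nat.card A * Nat.card B) := by rw [h3]
        _ ≤ (Nat.card (A ⊓ B : Subgroup X) * (A.index * B.index)) * (Nat.card A * Nat.card B) := by
            gcongr
        _ = Nat.card (A ⊓ B : Subgroup X) * ((Nat.card A * A.index) * (Nat.card B * B.index)) := by
            ring
        _ = Nat.card X * (Nat.card X * Nat.card (A ⊓ B : Subgroup X)) := by rw [h1, h2]; ring
    rw [Nat.card_eq_fintype_card (α := X)] at key
    exact_mod_cast key
  let V : List Y → Subgroup X := fun l => l.foldr (fun y W => U y ⊓ W) ⊤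
  have hpt : ∀ (l : List Y) (x : X), (l.map (fun y => ind (fun x y => x ∈ U y) x y)).prod
      = if x ∈ V l then (1 : ℝ) else 0 := by
    intro l x
    induction l with
    | nil => simp [V]
    | cons y l ih =>
      rw [List.map_cons, List.prod_cons, ih]
      have hV : V (y :: l) = U y ⊓ V l := rfl
      rw [hV]
      by_cases h1 : x ∈ U y <;> by_cases h2 : x ∈ V l <;> simp [ind, h1, h2, Subgroup.mem_inf]
  have hsum : ∀ y, ∑ x, ind (fun x y => x ∈ U y) x y = (Nat.card (U y) : ℝ) := by
    intro y
    rw [← hc]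
    rfl
  have hmain : ∀ l : List Y, (Fintype.card X : ℝ) * (l.map (fun y => (Nat.card (U y) : ℝ))).prod
      ≤ (Fintype.card X : ℝ) ^ l.length * (Nat.card (V l) : ℝ) := by
    intro l
    induction l with
    | nil =>
      have : V [] = ⊤ := rfl
      rw [this]
      simp [Nat.card_eq_fintype_card]
    | cons y l ih =>
      have hV : V (y :: l) = U y ⊓ V l := rfl
      rw [hV, List.map_cons, List.prod_cons, List.length_cons, pow_succ]
      have hs := hstep (U y) (V l)
      have hp : (0 : ℝ) ≤ (Fintype.card X : ℝ) ^ l.length := by positivity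
      have hu : (0 : ℝ) ≤ (Nat.card (U y) : ℝ) := by positivity
      calc (Fintype.card X : ℝ) * ((Nat.card (U y) : ℝ) * (l.map (fun y => (Nat.card (U y) : ℝ))).prod)
          = (Nat.card (U y) : ℝ) * ((Fintype.card X : ℝ) * (l.map (fun y => (Nat.card (U y) : ℝ))).prod) := by
            ring
        _ ≤ (Nat.card (U y) : ℝ) * ((Fintype.card X : ℝ) ^ l.length * (Nat.card (V l) : ℝ)) :=
            mul_le_mul_of_nonneg_left ih hu
        _ = (Fintype.card X : ℝ) ^ l.length * ((Nat.card (U y) : ℝ) * (Nat.card (V l) : ℝ)) := by ring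
        _ ≤ (Fintype.card X : ℝ) ^ l.length
              * ((Fintype.card X : ℝ) * (Nat.card (U y ⊓ V l : Subgroup X) : ℝ)) :=
            mul_le_mul_of_nonneg_left hs hp
        _ = (Fintype.card X : ℝ) ^ l.length * (Fintype.card X : ℝ)
              * (Nat.card (U y ⊓ V l : Subgroup X) : ℝ) := by ring
  have e1 : (l.map (fun y => ∑ x, ind (fun x y => x ∈ U y) x y))
      = l.map (fun y => (Nat.card (U y) : ℝ)) := by
    refine List.map_congr_left (fun y _ => hsum y)
  have e2 : ∑ x, (l.map (fun y => ind (fun x y => x ∈ U y) x y)).prod = (Nat.card (V l) : ℝ) := by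
    rw [← hc]
    exact Finset.sum_congr rfl (fun x _ => hpt l x)
  rw [e1, e2]
  exact hmain l

end P050
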